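import Vale.Agent.P073.ConGlue

/-!
# P073, block PR3: two-dimensional conical cell complexes with the same incidences are isomorphic
-/

open Set Metric Topology Filter

namespace P073.PR720

open P073

variable {E F : Type*} [NormedAddCommGroup E] [NormedSpace ℝ E]
  [NormedAddCommGroup F] [NormedSpace ℝ F]
variable {V B J : Type*}

/-- local finiteness of the family `A` at the points of `W` -/
def LF {ι : Type*} (A : ι → Set E) (W : Set E) : Prop :=
  ∀ z ∈ W, ∃ U ∈ 𝓝 z, {i | (A i ∩ U).Nonempty}.Finite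

omit [NormedSpace ℝ E] in
theorem LF.mono {ι : Type*} {A : ι → Set E} {W W' : Set E} (h : LF A W) (hW : W' ⊆ W) :
    LF A W' := fun z hz => h z (hW hz)

omit [NormedSpace ℝ E] in
theorem LF.subset {ι : Type*} {A A' : ι → Set E} {W : Set E} (h : LF A W)
    (hA : ∀ i, A' i ⊆ A i) : LF A' W := by
  intro z hz
  obtain ⟨U, hU, hfin⟩ := h z hz
  exact ⟨U, hU, hfin.subset fun i hi => hi.mono (inter_subset_inter_left _ (hA i))⟩

omit [NormedSpace ℝ E] in
theorem LF.closed {ι : Type*} {A : ι → Set E} {W : Set E} (h : LF A W)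
    (hA : ∀ i, IsClosed (A i)) {z : E} (hz : z ∈ W) (hcl : z ∈ closure (⋃ i, A i)) :
    z ∈ ⋃ i, A i := by
  obtain ⟨U, hU, hfin⟩ := h z hz
  have h1 : z ∈ closure (⋃ i ∈ {i | (A i ∩ U).Nonempty}, A i) := by
    rw [mem_closure_iff_nhds] at hcl ⊢
    intro t ht
    obtain ⟨y, ⟨hyt, hyU⟩, hyA⟩ := hcl (t ∩ U) (inter_mem ht hU)
    obtain ⟨i, hi⟩ := mem_iUnion.1 hyA
    exact ⟨y, hyt, mem_biUnion (show i ∈ {i | (A i ∩ U).Nonempty} from ⟨y, hi, hyU⟩) hi⟩
  rw [(hfin.isClosed_biUnion fun i _ => hA i).closure_eq] at h1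
  obtain ⟨i, -, hi⟩ := mem_iUnion₂.1 h1
  exact mem_iUnion.2 ⟨i, hi⟩

omit [NormedSpace ℝ E] in
/-- a family each member of which is inside one of the members of a locally finite family, with
finite fibres, is locally finite -/
theorem LF.of_cover {ι κ : Type*} {A : ι → Set E} {A' : κ → Set E} {W : Set E} (h : LF A W)
    (R : κ → ι → Prop) (hR : ∀ k, ∃ i, R k i ∧ A' k ⊆ A i) (hfin : ∀ i, {k | R k i}.Finite) :
    LF A' W := by
  intro z hz
  obtain ⟨U, hU, hf⟩ := h z hz
  refine ⟨U, hU, (hf.biUnion (fun i _ => hfin i)).subset ?_⟩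
  intro k hk
  obtain ⟨i, hi, hsub⟩ := hR k
  exact mem_biUnion (show i ∈ {i | (A i ∩ U).Nonempty} from
    hk.mono (inter_subset_inter_left _ hsub)) hi

/-- a conical graph with prescribed end points -/
structure Graph (e0 e1 : B → V) (E : Type*) [NormedAddCommGroup E] [NormedSpace ℝ E] where
  /-- vertices -/
  y : V → E
  /-- arcs -/
  arc : B → Set E
  ball : ∀ b, ConBall 1 (arc b) {y (e0 b), y (e1 b)}
  inj : Function.Injective y
  mem : ∀ b v, y v ∈ arc b → v = e0 b ∨ v = e1 b
  inter : ∀ b b', b ≠ b' → arc b ∩ arc b' ⊆ range y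

namespace Graph

variable {e0 e1 : B → V}

/-- the union of the vertices and arcs -/
def carrier (G : Graph e0 e1 E) : Set E := range G.y ∪ ⋃ b, G.arc b

/-- local finiteness in the carrier -/
structure IsLF (G : Graph e0 e1 E) (W : Set E) : Prop where
  verts : LF (fun v => ({G.y v} : Set E)) W
  arcs : LF G.arc W

theorem arc_inter_verts (G : Graph e0 e1 E) (b : B) :
    G.arc b ∩ range G.y = {G.y (e0 b), G.y (e1 b)} := by
  apply Subset.antisymm
  · rintro _ ⟨h1, ⟨v, rfl⟩⟩
    rcases G.mem b v h1 with h | h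
    · rw [h]; exact Or.inl rfl
    · rw [h]; exact Or.inr rfl
  · rintro x (h | h)
    · have h' : x = G.y (e0 b) := h
      rw [h']; exact ⟨(G.ball b).1 (Or.inl rfl), mem_range_self _⟩
    · have h' : x = G.y (e1 b) := h
      rw [h']; exact ⟨(G.ball b).1 (Or.inr rfl), mem_range_self _⟩

end Graph

/-- the conical homeomorphism of the empty sets -/
noncomputable def emptyHomeo : ConHomeo (∅ : Set E) (∅ : Set F) where
  toFun := fun _ => 0
  invFun := fun _ => 0
  mapsTo := mapsTo_empty _ _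
  mapsTo_inv := mapsTo_empty _ _
  left_inv := fun x hx => absurd hx (notMem_empty x)
  right_inv := fun x hx => absurd hx (notMem_empty x)
  cont := continuousOn_empty _
  cont_inv := continuousOn_empty _
  conical := fun x hx => absurd hx (notMem_empty x)

theorem conBall_zero (p : E) : ConBall 0 ({p} : Set E) ∅ := by
  refine ⟨empty_subset _, ?_⟩
  have h1 : (closedBall (0 : Fin 0 → ℝ) 1) = {0} := by
    ext x
    simp only [mem_closedBall_zero_iff, mem_singleton_iff]
    constructor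
    · intro _; exact Subsingleton.elim _ _
    · intro h; rw [h, norm_zero]; exact zero_le_one
  refine ⟨ConHomeo.cast (X := {p}) (Y := ({0} : Set (Fin 0 → ℝ)))
    { toFun := fun _ => 0
      invFun := fun _ => p
      mapsTo := fun _ _ => rfl
      mapsTo_inv := fun _ _ => rfl
      left_inv := fun x hx => by
        have : x = p := hx
        rw [this]
      right_inv := fun x _ => Subsingleton.elim _ _
      cont := continuousOn_const
      cont_inv := continuousOn_const
      conical := conicalOn_const 0 (by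
        intro x hx
        refine ⟨1, one_pos, fun v _ hv t _ => ?_⟩
        have h2 : x = p := hx
        have h3 : x + v = p := hv
        have h4 : v = 0 := by rw [h2] at h3; exact add_eq_left.1 h3
        rw [h4, smul_zero, add_zero]; exact hx) } rfl h1.symm, ?_⟩
  rw [image_empty]
  symm
  rw [eq_empty_iff_forall_notMem]
  intro x hx
  rw [mem_sphere_zero_iff_norm, Subsingleton.elim x 0, norm_zero] at hx
  exact zero_ne_one hx

/-- isomorphism of discrete sets -/
theorem exists_iso_zero {y : V → E} {x : V → F} (hy : Function.Injective y)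
    (hx : Function.Injective x)
    (hLy : LF (fun v => ({y v} : Set E)) (range y)) (hLx : LF (fun v => ({x v} : Set F)) (range x)) :
    ∃ Φ : ConHomeo (range y) (range x), ∀ v, Φ.toFun (y v) = x v := by
  have e1 : (∅ : Set E) ∪ ⋃ v, {y v} = range y := by
    rw [empty_union]; exact iUnion_singleton_eq_range y
  have e2 : (∅ : Set F) ∪ ⋃ v, {x v} = range x := by
    rw [empty_union]; exact iUnion_singleton_eq_range x
  obtain ⟨Φ, -, hΦ⟩ := ConHomeo.exists_extend_cells (emptyHomeo : ConHomeo (∅ : Set E) (∅ : Set F))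
    (fun _ : V => 0) (fun v => {y v}) (fun _ => ∅) (fun v => {x v}) (fun _ => ∅)
    (fun v => conBall_zero _) (fun v => conBall_zero _) (fun v => image_empty _)
    (fun v => inter_empty _) (fun v => inter_empty _)
    (by
      rintro i j hij z ⟨h1, h2⟩
      exfalso
      apply hij
      apply hy
      have h1' : z = y i := h1
      have h2' : z = y j := h2
      rw [← h1', ← h2'])
    (by
      rintro i j hij z ⟨h1, h2⟩
      exfalso
      apply hij
      apply hx
      have h1' : z = x i := h1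
      have h2' : z = x j := h2
      rw [← h1', ← h2'])
    (by intro z _ h; rw [closure_empty] at h; exact h)
    (by intro z _ h; rw [closure_empty] at h; exact h)
    (by rw [e1]; exact hLy) (by rw [e2]; exact hLx)
  refine ⟨Φ.cast e1 e2, fun v => ?_⟩
  have : Φ.toFun (y v) ∈ ({x v} : Set F) := by
    rw [← hΦ v]; exact ⟨y v, rfl, rfl⟩
  exact this

/-- isomorphism of conical graphs with the same incidences -/
theorem Graph.exists_iso {e0 e1 : B → V} (G : Graph e0 e1 E) (G' : Graph e0 e1 F)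
    (hG : G.IsLF G.carrier) (hG' : G'.IsLF G'.carrier) :
    ∃ Φ : ConHomeo G.carrier G'.carrier, (∀ v, Φ.toFun (G.y v) = G'.y v) ∧
      ∀ b, Φ.toFun '' G.arc b = G'.arc b := by
  obtain ⟨φ, hφ⟩ := exists_iso_zero G.inj G'.inj (hG.verts.mono subset_union_left)
    (hG'.verts.mono subset_union_left)
  obtain ⟨Φ, h1, h2⟩ := ConHomeo.exists_extend_cells φ (fun _ : B => 1) G.arc
    (fun b => {G.y (e0 b), G.y (e1 b)}) G'.arc (fun b => {G'.y (e0 b), G'.y (e1 b)})
    G.ball G'.ball (fun b => by rw [image_pair, hφ, hφ]) G.arc_inter_verts G'.arc_inter_verts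
    G.inter G'.inter
    (by
      intro z hz hcl
      rw [← iUnion_singleton_eq_range] at hcl ⊢
      exact hG.verts.closed (fun v => isClosed_singleton) hz hcl)
    (by
      intro z hz hcl
      rw [← iUnion_singleton_eq_range] at hcl ⊢
      exact hG'.verts.closed (fun v => isClosed_singleton) hz hcl)
    hG.arcs hG'.arcs
  refine ⟨Φ, fun v => ?_, h2⟩
  rw [h1 (mem_range_self v), hφ]

/-- a two-dimensional conical complex with prescribed incidences -/
structure Cx2 (e0 e1 : B → V) (inc : B → J → Prop) (E : Type*) [NormedAddCommGroup E]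
    [NormedSpace ℝ E] extends Graph e0 e1 E where
  /-- tiles -/
  tile : J → Set E
  tball : ∀ j, ConBall 2 (tile j) (⋃ b ∈ {b | inc b j}, arc b)
  tile_arc : ∀ j b, tile j ∩ arc b ⊆ ⋃ b ∈ {b | inc b j}, arc b
  tile_tile : ∀ j k, j ≠ k → tile j ∩ tile k ⊆ ⋃ b, arc b
  arc_tile : ∀ b, ∃ j, inc b j
  vert_arc : ∀ v, ∃ b, v = e0 b ∨ v = e1 b
  fin_inc : ∀ j, {b | inc b j}.Finite
  lf : LF tile (⋃ j, tile j)

namespace Cx2

variable {e0 e1 : B → V} {inc : B → J → Prop}

/-- the boundary curve of a tile -/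
def bd (K : Cx2 e0 e1 inc E) (j : J) : Set E := ⋃ b ∈ {b | inc b j}, K.arc b

theorem bd_subset (K : Cx2 e0 e1 inc E) (j : J) : K.bd j ⊆ K.tile j := (K.tball j).1

theorem arc_subset_tile (K : Cx2 e0 e1 inc E) {b : B} {j : J} (h : inc b j) :
    K.arc b ⊆ K.tile j :=
  (subset_biUnion_of_mem (u := fun b => K.arc b) (show b ∈ {b | inc b j} from h)).trans
    (K.bd_subset j)

theorem vert_subset_arcs (K : Cx2 e0 e1 inc E) : range K.y ⊆ ⋃ b, K.arc b := by
  rintro _ ⟨v, rfl⟩
  obtain ⟨b, hb | hb⟩ := K.vert_arc v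
  · exact mem_iUnion.2 ⟨b, (K.ball b).1 (by rw [hb]; exact Or.inl rfl)⟩
  · exact mem_iUnion.2 ⟨b, (K.ball b).1 (by rw [hb]; exact Or.inr rfl)⟩

theorem carrier_eq (K : Cx2 e0 e1 inc E) : K.toGraph.carrier = ⋃ b, K.arc b :=
  union_eq_right.2 K.vert_subset_arcs

theorem carrier_subset (K : Cx2 e0 e1 inc E) : K.toGraph.carrier ⊆ ⋃ j, K.tile j := by
  rw [K.carrier_eq]
  refine iUnion_subset fun b => ?_
  obtain ⟨j, hj⟩ := K.arc_tile b
  exact (K.arc_subset_tile hj).trans (subset_iUnion _ j)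

theorem lf_arc (K : Cx2 e0 e1 inc E) : LF K.arc (⋃ j, K.tile j) :=
  K.lf.of_cover inc (fun b => by
    obtain ⟨j, hj⟩ := K.arc_tile b
    exact ⟨j, hj, K.arc_subset_tile hj⟩) K.fin_inc

theorem lf_vert (K : Cx2 e0 e1 inc E) : LF (fun v => ({K.y v} : Set E)) (⋃ j, K.tile j) :=
  K.lf_arc.of_cover (fun v b => v = e0 b ∨ v = e1 b) (fun v => by
    obtain ⟨b, hb⟩ := K.vert_arc v
    refine ⟨b, hb, singleton_subset_iff.2 ?_⟩
    rcases hb with hb | hb
    · exact (K.ball b).1 (by rw [hb]; exact Or.inl rfl)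
    · exact (K.ball b).1 (by rw [hb]; exact Or.inr rfl)) (fun b => by
    refine (Set.toFinite {e0 b, e1 b}).subset ?_
    rintro v (h | h)
    · exact Or.inl h
    · exact Or.inr h)

theorem isLF (K : Cx2 e0 e1 inc E) : K.toGraph.IsLF (⋃ j, K.tile j) := ⟨K.lf_vert, K.lf_arc⟩

/-- **Isomorphism** of two-dimensional conical complexes with the same incidences. -/
theorem exists_iso (K : Cx2 e0 e1 inc E) (K' : Cx2 e0 e1 inc F) :
    ∃ Φ : ConHomeo (⋃ j, K.tile j) (⋃ j, K'.tile j), (∀ v, Φ.toFun (K.y v) = K'.y v) ∧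
      (∀ b, Φ.toFun '' K.arc b = K'.arc b) ∧ ∀ j, Φ.toFun '' K.tile j = K'.tile j := by
  obtain ⟨φ, h1, h2⟩ := K.toGraph.exists_iso K'.toGraph
    ⟨K.lf_vert.mono K.carrier_subset, K.lf_arc.mono K.carrier_subset⟩
    ⟨K'.lf_vert.mono K'.carrier_subset, K'.lf_arc.mono K'.carrier_subset⟩
  have hX : ∀ (K : Cx2 e0 e1 inc E) (j : J), K.tile j ∩ K.toGraph.carrier = K.bd j := by
    intro K j
    rw [K.carrier_eq]
    apply Subset.antisymm
    · rintro z ⟨hz, hz'⟩
      obtain ⟨b, hb⟩ := mem_iUnion.1 hz'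
      exact K.tile_arc j b ⟨hz, hb⟩
    · intro z hz
      refine ⟨K.bd_subset j hz, ?_⟩
      obtain ⟨b, -, hb⟩ := mem_iUnion₂.1 hz
      exact mem_iUnion.2 ⟨b, hb⟩
  have hX' : ∀ (K : Cx2 e0 e1 inc F) (j : J), K.tile j ∩ K.toGraph.carrier = K.bd j := by
    intro K j
    rw [K.carrier_eq]
    apply Subset.antisymm
    · rintro z ⟨hz, hz'⟩
      obtain ⟨b, hb⟩ := mem_iUnion.1 hz'
      exact K.tile_arc j b ⟨hz, hb⟩
    · intro z hz
      refine ⟨K.bd_subset j hz, ?_⟩
      obtain ⟨b, -, hb⟩ := mem_iUnion₂.1 hz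
      exact mem_iUnion.2 ⟨b, hb⟩
  have e1' : K.toGraph.carrier ∪ ⋃ j, K.tile j = ⋃ j, K.tile j :=
    union_eq_right.2 K.carrier_subset
  have e2' : K'.toGraph.carrier ∪ ⋃ j, K'.tile j = ⋃ j, K'.tile j :=
    union_eq_right.2 K'.carrier_subset
  obtain ⟨Φ, h3, h4⟩ := ConHomeo.exists_extend_cells φ (fun _ : J => 2) K.tile K.bd K'.tile K'.bd
    K.tball K'.tball
    (by
      intro j
      show φ.toFun '' (⋃ b ∈ {b | inc b j}, K.arc b) = ⋃ b ∈ {b | inc b j}, K'.arc b
      rw [image_iUnion₂]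
      exact iUnion₂_congr fun b _ => h2 b)
    (hX K) (hX' K')
    (by
      intro j k hjk
      rw [K.carrier_eq]; exact K.tile_tile j k hjk)
    (by
      intro j k hjk
      rw [K'.carrier_eq]; exact K'.tile_tile j k hjk)
    (by
      rw [e1']
      intro z hz hcl
      rw [K.carrier_eq] at hcl ⊢
      exact K.lf_arc.closed (fun b => (K.ball b).isClosed) hz hcl)
    (by
      rw [e2']
      intro z hz hcl
      rw [K'.carrier_eq] at hcl ⊢
      exact K'.lf_arc.closed (fun b => (K'.ball b).isClosed) hz hcl)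
    (by rw [e1']; exact K.lf) (by rw [e2']; exact K'.lf)
  have hv : ∀ v, K.y v ∈ K.toGraph.carrier := fun v => Or.inl (mem_range_self v)
  refine ⟨Φ.cast e1' e2', fun v => ?_, fun b => ?_, h4⟩
  · show Φ.toFun (K.y v) = _
    rw [h3 (hv v), h1]
  · show Φ.toFun '' K.arc b = _
    have : EqOn Φ.toFun φ.toFun (K.arc b) := h3.mono
      ((subset_iUnion _ b).trans subset_union_right)
    rw [this.image_eq, h2]

end Cx2

end P073.PR720
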