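import Vale.Agent.P073.PR720.Cx

/-!
# P073, block PR3: realisation of a labelled complex inside a cell decomposition
-/

open Set Metric Topology Filter

namespace P073.PR720

open P073

variable {E F : Type*} [NormedAddCommGroup E] [NormedSpace ℝ E]
  [NormedAddCommGroup F] [NormedSpace ℝ F]
variable {V B J I S : Type*}

/-- The boundary `bd` of the convex cell `C` has the disc filling property. -/
def DiscFill (C bd : Set F) : Prop :=
  ∀ (N : Type) [Finite N] (γ : N → Set F), (∀ n, ConSphere 1 (γ n)) → (∀ n, γ n ⊆ bd) →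
    (∀ n m, n ≠ m → Disjoint (γ n) (γ m)) →
    ∃ D : N → Set F, (∀ n, ConBall 2 (D n) (γ n)) ∧ (∀ n, D n ∩ bd = γ n) ∧ (∀ n, D n ⊆ C) ∧
      ∀ n m, n ≠ m → Disjoint (D n) (D m)

theorem DiscFill.of_finite {C bd : Set F} (h : DiscFill C bd) {N : Type*} [Finite N]
    (γ : N → Set F) (h1 : ∀ n, ConSphere 1 (γ n)) (h2 : ∀ n, γ n ⊆ bd)
    (h3 : ∀ n m, n ≠ m → Disjoint (γ n) (γ m)) :
    ∃ D : N → Set F, (∀ n, ConBall 2 (D n) (γ n)) ∧ (∀ n, D n ∩ bd = γ n) ∧ (∀ n, D n ⊆ C) ∧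
      ∀ n m, n ≠ m → Disjoint (D n) (D m) := by
  cases nonempty_fintype N
  let e : N ≃ Fin (Fintype.card N) := Fintype.equivFin N
  obtain ⟨D, d1, d2, d3, d4⟩ := h (Fin (Fintype.card N)) (fun n => γ (e.symm n))
    (fun n => h1 _) (fun n => h2 _) (fun n m hnm => h3 _ _ (fun h => hnm (e.symm.injective h)))
  refine ⟨fun n => D (e n), fun n => ?_, fun n => ?_, fun n => d3 _, fun n m hnm =>
    d4 _ _ (fun h => hnm (e.injective h))⟩
  · simpa using d1 (e n)
  · simpa using d2 (e n)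

variable {e0 e1 : B → V} {inc : B → J → Prop}

/-- the carrier is covered by the cells -/
theorem exists_realise_tiles (K : Cx2 e0 e1 inc E) (C bd : I → Set F) (lab : J → I)
    (G' : Graph e0 e1 F)
    (hbdC : ∀ i, bd i ⊆ C i)
    (hLF : LF C (⋃ i, C i))
    (hfin : ∀ i, {j | lab j = i}.Finite)
    (harc : ∀ b j, inc b j → G'.arc b ⊆ bd (lab j))
    (hcell : ∀ i i', i ≠ i' → C i ∩ C i' ⊆ bd i)
    (harcC : ∀ b i, G'.arc b ∩ C i ⊆ bd i)
    (hdis : ∀ j k, j ≠ k → lab j = lab k → Disjoint (K.tile j) (K.tile k))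
    (hfill : ∀ i, DiscFill (C i) (bd i)) :
    ∃ K' : Cx2 e0 e1 inc F, K'.toGraph = G' ∧ (∀ j, K'.tile j ⊆ C (lab j)) ∧
      ∀ j, K'.tile j ∩ bd (lab j) = K'.bd j := by
  classical
  -- local finiteness of the realised graph
  have hcarr : G'.carrier ⊆ ⋃ i, C i := by
    have harcs : ∀ b, G'.arc b ⊆ ⋃ i, C i := fun b => by
      obtain ⟨j, hj⟩ := K.arc_tile b
      exact ((harc b j hj).trans (hbdC _)).trans (subset_iUnion _ (lab j))
    rintro z (⟨v, rfl⟩ | hz)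
    · obtain ⟨b, hb | hb⟩ := K.vert_arc v
      · exact harcs b ((G'.ball b).1 (by rw [hb]; exact Or.inl rfl))
      · exact harcs b ((G'.ball b).1 (by rw [hb]; exact Or.inr rfl))
    · obtain ⟨b, hb⟩ := mem_iUnion.1 hz
      exact harcs b hb
  have hLFarc : LF G'.arc (⋃ i, C i) :=
    hLF.of_cover (fun b i => ∃ j, inc b j ∧ lab j = i) (fun b => by
      obtain ⟨j, hj⟩ := K.arc_tile b
      exact ⟨lab j, ⟨j, hj, rfl⟩, (harc b j hj).trans (hbdC _)⟩) (fun i => by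
      refine ((hfin i).biUnion (fun j _ => K.fin_inc j)).subset ?_
      rintro b ⟨j, hj, hji⟩
      exact mem_biUnion (show j ∈ {j | lab j = i} from hji) hj)
  have hLFv : LF (fun v => ({G'.y v} : Set F)) (⋃ i, C i) :=
    hLFarc.of_cover (fun v b => v = e0 b ∨ v = e1 b) (fun v => by
      obtain ⟨b, hb⟩ := K.vert_arc v
      refine ⟨b, hb, singleton_subset_iff.2 ?_⟩
      rcases hb with hb | hb
      · exact (G'.ball b).1 (by rw [hb]; exact Or.inl rfl)
      · exact (G'.ball b).1 (by rw [hb]; exact Or.inr rfl)) (fun b => by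
      refine (Set.toFinite {e0 b, e1 b}).subset ?_
      rintro v (h | h)
      · exact Or.inl h
      · exact Or.inr h)
  -- isomorphism of the graphs
  obtain ⟨φ, -, hφ⟩ := K.toGraph.exists_iso G'
    ⟨K.lf_vert.mono K.carrier_subset, K.lf_arc.mono K.carrier_subset⟩
    ⟨hLFv.mono hcarr, hLFarc.mono hcarr⟩
  have hbdX : ∀ j, K.bd j ⊆ K.toGraph.carrier := by
    intro j z hz
    obtain ⟨b, -, hb⟩ := mem_iUnion₂.1 hz
    exact Or.inr (mem_iUnion.2 ⟨b, hb⟩)
  let γ : J → Set F := fun j => ⋃ b ∈ {b | inc b j}, G'.arc b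
  have hγ : ∀ j, φ.toFun '' K.bd j = γ j := by
    intro j
    show φ.toFun '' (⋃ b ∈ {b | inc b j}, K.arc b) = ⋃ b ∈ {b | inc b j}, G'.arc b
    rw [image_iUnion₂]
    exact iUnion₂_congr fun b _ => hφ b
  have hsph : ∀ j, ConSphere 1 (γ j) := by
    intro j
    obtain ⟨ψ⟩ := (K.tball j).conSphere
    have hc : ConicalSet (K.bd j) := (K.tball j).conicalSet_bdry
    exact ⟨((φ.restr hc (hbdX j)).cast rfl (hγ j)).symm.trans ψ⟩
  have hγbd : ∀ j, γ j ⊆ bd (lab j) := by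
    intro j z hz
    obtain ⟨b, hb, hbz⟩ := mem_iUnion₂.1 hz
    exact harc b j hb hbz
  have hγdis : ∀ j k, j ≠ k → lab j = lab k → Disjoint (γ j) (γ k) := by
    intro j k hjk hl
    rw [← hγ, ← hγ, Set.disjoint_left]
    rintro _ ⟨x, hx, rfl⟩ ⟨x', hx', he⟩
    have := φ.injOn (hbdX k hx') (hbdX j hx) he
    subst this
    exact (Set.disjoint_left.1 (hdis j k hjk hl)) (K.bd_subset j hx) (K.bd_subset k hx')
  -- fill the discs cell by cell
  have hD : ∀ i, ∃ D : {j // lab j = i} → Set F, (∀ n, ConBall 2 (D n) (γ n)) ∧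
      (∀ n, D n ∩ bd i = γ n) ∧ (∀ n, D n ⊆ C i) ∧ ∀ n m, n ≠ m → Disjoint (D n) (D m) := by
    intro i
    have : Finite {j // lab j = i} := hfin i
    refine (hfill i).of_finite (fun n : {j // lab j = i} => γ n) (fun n => hsph n) (fun n => ?_) ?_
    · have := hγbd n.1
      rwa [n.2] at this
    · intro n m hnm
      exact hγdis n.1 m.1 (fun h => hnm (Subtype.ext h)) (n.2.trans m.2.symm)
  choose D d1 d2 d3 d4 using hD
  let tile' : J → Set F := fun j => D (lab j) ⟨j, rfl⟩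
  have t1 : ∀ j, ConBall 2 (tile' j) (γ j) := fun j => d1 (lab j) ⟨j, rfl⟩
  have t2 : ∀ j, tile' j ∩ bd (lab j) = γ j := fun j => d2 (lab j) ⟨j, rfl⟩
  have t3 : ∀ j, tile' j ⊆ C (lab j) := fun j => d3 (lab j) ⟨j, rfl⟩
  have t4 : ∀ j k, j ≠ k → lab j = lab k → Disjoint (tile' j) (tile' k) := by
    intro j k hjk hl
    have h6 : ∀ i (h : lab k = i), D i ⟨k, h⟩ = D (lab k) ⟨k, rfl⟩ := by
      rintro i rfl; rfl
    have h5 : tile' k = D (lab j) ⟨k, hl.symm⟩ := (h6 (lab j) hl.symm).symm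
    rw [h5]
    exact d4 (lab j) ⟨j, rfl⟩ ⟨k, hl.symm⟩ (fun h => hjk (congrArg Subtype.val h))
  refine ⟨{ toGraph := G'
            tile := tile'
            tball := t1
            tile_arc := ?_
            tile_tile := ?_
            arc_tile := K.arc_tile
            vert_arc := K.vert_arc
            fin_inc := K.fin_inc
            lf := ?_ }, rfl, t3, t2⟩
  · rintro j b z ⟨hz, hzb⟩
    have : z ∈ tile' j ∩ bd (lab j) := ⟨hz, harcC b _ ⟨hzb, t3 j hz⟩⟩
    rw [t2] at this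
    exact this
  · rintro j k hjk z ⟨hz, hzk⟩
    by_cases hl : lab j = lab k
    · exact absurd hzk ((Set.disjoint_left.1 (t4 j k hjk hl)) hz)
    · have : z ∈ tile' j ∩ bd (lab j) := ⟨hz, hcell _ _ hl ⟨t3 j hz, t3 k hzk⟩⟩
      rw [t2] at this
      obtain ⟨b, -, hb⟩ := mem_iUnion₂.1 this
      exact mem_iUnion.2 ⟨b, hb⟩
  · refine (hLF.of_cover (fun j i => lab j = i) (fun j => ⟨lab j, rfl, t3 j⟩) hfin).mono ?_
    exact iUnion_subset fun j => (t3 j).trans (subset_iUnion _ _)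

/-- realised arcs form a graph -/
theorem exists_realise_graph (x : V → F) (hx : Function.Injective x) (q dq : S → Set F)
    (face : B → S)
    (hqq : ∀ s s', s ≠ s' → q s ∩ q s' ⊆ dq s)
    (hxq : ∀ v s, x v ∈ q s → x v ∈ dq s)
    (harcs : ∀ s, ∃ a : {b // face b = s} → Set F,
      (∀ b, ConBall 1 (a b) {x (e0 b), x (e1 b)}) ∧ (∀ b, a b ⊆ q s) ∧
      (∀ b, a b ∩ dq s = {x (e0 b), x (e1 b)}) ∧ ∀ b b', b ≠ b' → Disjoint (a b) (a b')) :
    ∃ G' : Graph e0 e1 F, G'.y = x ∧ (∀ b, G'.arc b ⊆ q (face b)) ∧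
      ∀ b, G'.arc b ∩ dq (face b) = {x (e0 b), x (e1 b)} := by
  classical
  choose a h1 h2 h3 h4 using harcs
  let arc' : B → Set F := fun b => a (face b) ⟨b, rfl⟩
  have a1 : ∀ b, ConBall 1 (arc' b) {x (e0 b), x (e1 b)} := fun b => h1 (face b) ⟨b, rfl⟩
  have a2 : ∀ b, arc' b ⊆ q (face b) := fun b => h2 (face b) ⟨b, rfl⟩
  have a3 : ∀ b, arc' b ∩ dq (face b) = {x (e0 b), x (e1 b)} := fun b => h3 (face b) ⟨b, rfl⟩
  have a4 : ∀ b b', b ≠ b' → face b = face b' → Disjoint (arc' b) (arc' b') := by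
    intro b b' hbb hl
    have h6 : ∀ i (h : face b' = i), a i ⟨b', h⟩ = a (face b') ⟨b', rfl⟩ := by
      rintro i rfl; rfl
    have h5 : arc' b' = a (face b) ⟨b', hl.symm⟩ := (h6 (face b) hl.symm).symm
    rw [h5]
    exact h4 (face b) ⟨b, rfl⟩ ⟨b', hl.symm⟩ (fun h => hbb (congrArg Subtype.val h))
  refine ⟨{ y := x
            arc := arc'
            ball := a1
            inj := hx
            mem := ?_
            inter := ?_ }, rfl, a2, a3⟩
  · intro b v hv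
    have : x v ∈ arc' b ∩ dq (face b) := ⟨hv, hxq v _ (a2 b hv)⟩
    rw [a3] at this
    rcases this with h | h
    · exact Or.inl (hx h)
    · exact Or.inr (hx h)
  · rintro b b' hbb z ⟨hz, hz'⟩
    by_cases hl : face b = face b'
    · exact absurd hz' ((Set.disjoint_left.1 (a4 b b' hbb hl)) hz)
    · have : z ∈ arc' b ∩ dq (face b) := ⟨hz, hqq _ _ hl ⟨a2 b hz, a2 b' hz'⟩⟩
      rw [a3] at this
      rcases this with h | h
      · exact ⟨_, (show z = x (e0 b) from h).symm⟩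
      · exact ⟨_, (show z = x (e1 b) from h).symm⟩

/-- **PR3**: realisation of the complex `K` (on the surface `F = ⋃ tiles`), with labels `lab` of
the tiles and faces `face` of the arcs, and crossing points `x`, in the cell decomposition
`(C i, bd i)`, `(q s, dq s)`. -/
theorem exists_realisation (K : Cx2 e0 e1 inc E) (C bd : I → Set F) (q dq : S → Set F)
    (lab : J → I) (face : B → S) (x : V → F) (hx : Function.Injective x)
    -- the cell decomposition
    (hbdC : ∀ i, bd i ⊆ C i) (hLF : LF C (⋃ i, C i))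
    (hcell : ∀ i i', i ≠ i' → C i ∩ C i' ⊆ bd i)
    (hqC : ∀ s i, q s ∩ C i ⊆ bd i)
    (hqq : ∀ s s', s ≠ s' → q s ∩ q s' ⊆ dq s)
    (hxq : ∀ v s, x v ∈ q s → x v ∈ dq s)
    -- the labels
    (hfin : ∀ i, {j | lab j = i}.Finite)
    (hface : ∀ b j, inc b j → q (face b) ⊆ bd (lab j))
    (hdis : ∀ j k, j ≠ k → lab j = lab k → Disjoint (K.tile j) (K.tile k))
    -- arcs and discs
    (harcs : ∀ s, ∃ a : {b // face b = s} → Set F,
      (∀ b, ConBall 1 (a b) {x (e0 b), x (e1 b)}) ∧ (∀ b, a b ⊆ q s) ∧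
      (∀ b, a b ∩ dq s = {x (e0 b), x (e1 b)}) ∧ ∀ b b', b ≠ b' → Disjoint (a b) (a b'))
    (hfill : ∀ i, DiscFill (C i) (bd i)) :
    ∃ (K' : Cx2 e0 e1 inc F) (g : ConHomeo (⋃ j, K.tile j) (⋃ j, K'.tile j)),
      K'.y = x ∧ (∀ b, K'.arc b ⊆ q (face b)) ∧
      (∀ b, K'.arc b ∩ dq (face b) = {x (e0 b), x (e1 b)}) ∧
      (∀ j, K'.tile j ⊆ C (lab j)) ∧ (∀ j, K'.tile j ∩ bd (lab j) = K'.bd j) ∧
      (∀ v, g.toFun (K.y v) = x v) ∧ (∀ b, g.toFun '' K.arc b = K'.arc b) ∧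
      ∀ j, g.toFun '' K.tile j = K'.tile j := by
  obtain ⟨G', hy, ha, ha'⟩ := exists_realise_graph (e0 := e0) (e1 := e1) x hx q dq face hqq hxq
    harcs
  obtain ⟨K', hK', ht, ht'⟩ := exists_realise_tiles K C bd lab G' hbdC hLF hfin
    (fun b j hb => (ha b).trans (hface b j hb)) hcell
    (fun b i => (inter_subset_inter_left _ (ha b)).trans (hqC _ i)) hdis hfill
  obtain ⟨g, g1, g2, g3⟩ := K.exists_iso K'
  subst hK'
  exact ⟨K', g, hy, ha, ha', ht, ht', fun v => by rw [g1, hy], g2, g3⟩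

end P073.PR720
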